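import Vale.Agent.P207Z.JetC

/-!
# P207, OPS3: Borel splittings, the canonical field of projections of a system of equations
-/

set_option linter.unusedSectionVars false

open Set Filter Topology Metric MeasureTheory
open scoped ContDiff

noncomputable section

namespace Vale.Agent.P207Z.OpsC

variable {V F G : Type} [NormedAddCommGroup V] [NormedSpace ℝ V]
  [NormedAddCommGroup F] [NormedSpace ℝ F] [FiniteDimensional ℝ F]
  [NormedAddCommGroup G] [NormedSpace ℝ G] [FiniteDimensional ℝ G]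

theorem meas_inverse : Measurable (Ring.inverse : (F →L[ℝ] F) → F →L[ℝ] F) := by
  classical
  have := FiniteDimensional.complete ℝ F
  have h : ContinuousOn (Ring.inverse : (F →L[ℝ] F) → F →L[ℝ] F) {x | IsUnit x} := by
    rintro _ ⟨u, rfl⟩
    exact (NormedRing.inverse_continuousAt u).continuousWithinAt
  have e : (Ring.inverse : (F →L[ℝ] F) → F →L[ℝ] F) =
      {x | IsUnit x}.piecewise Ring.inverse fun _ => 0 := by
    funext x
    by_cases hx : IsUnit x
    · rw [piecewise_eq_of_mem _ _ _ (show x ∈ {x | IsUnit x} from hx)]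
    · rw [piecewise_eq_of_notMem _ _ _ (show x ∉ {x | IsUnit x} from hx),
        Ring.inverse_non_unit _ hx]
  rw [e]
  exact h.measurable_piecewise continuousOn_const Units.isOpen.measurableSet

theorem split_euclid {H H' : Type} [NormedAddCommGroup H] [InnerProductSpace ℝ H]
    [FiniteDimensional ℝ H] [NormedAddCommGroup H'] [InnerProductSpace ℝ H']
    [FiniteDimensional ℝ H'] : ∃ (p : (H →L[ℝ] H') → H →L[ℝ] H) (r : (H →L[ℝ] H') → H' →L[ℝ] H),
      Measurable p ∧ Measurable r ∧ ∀ A, (∀ v, A (p A v) = 0) ∧ (∀ v, A v = 0 → p A v = v) ∧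
        (∀ g, p A (r A g) = 0) ∧ ∀ v, p A v + r A (A v) = v := by
  have := FiniteDimensional.complete ℝ H
  have := FiniteDimensional.complete ℝ H'
  let p : (H →L[ℝ] H') → H →L[ℝ] H := fun A => A.ker.starProjection
  have mp : Measurable p := MET.meas_proj_ker (A := id) measurable_id
  have ca : Continuous fun A : H →L[ℝ] H' => ContinuousLinearMap.adjoint A :=
    ContinuousLinearMap.adjoint.continuous
  let T : (H →L[ℝ] H') → H →L[ℝ] H := fun A => ContinuousLinearMap.adjoint A ∘L A + p A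
  have mT : Measurable T := (ca.clm_comp continuous_id).measurable.add mp
  have cc : Continuous fun u : ((H →L[ℝ] H) × (H →L[ℝ] H)) × (H' →L[ℝ] H) =>
      (1 - u.1.1) ∘L u.1.2 ∘L u.2 :=
    (continuous_const.sub continuous_fst.fst).clm_comp (continuous_fst.snd.clm_comp continuous_snd)
  refine ⟨p, fun A => (1 - p A) ∘L Ring.inverse (T A) ∘L ContinuousLinearMap.adjoint A, mp,
    cc.measurable.comp ((mp.prodMk (meas_inverse.comp mT)).prodMk ca.measurable), fun A => ?_⟩
  have p1 : ∀ v, A (p A v) = 0 := fun v => A.ker.starProjection_apply_mem v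
  have p2 : ∀ v, A v = 0 → p A v = v := fun v hv => Submodule.starProjection_eq_self_iff.2 hv
  have p3 : ∀ v, p A (p A v) = p A v := fun v => p2 _ (p1 v)
  have hT : ∀ v, T A v = ContinuousLinearMap.adjoint A (A v) + p A v := fun v => rfl
  have inj : ∀ v, T A v = 0 → v = 0 := fun v hv => by
    have h1 : inner ℝ (T A v) (p A v) = inner ℝ (p A v) (p A v) := by
      rw [hT, inner_add_left, ContinuousLinearMap.adjoint_inner_left, p1, inner_zero_right,
        zero_add]
    rw [hv, inner_zero_left] at h1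
    have h2 : p A v = 0 := inner_self_eq_zero.1 h1.symm
    have h3 : inner ℝ (T A v) v = inner ℝ (A v) (A v) := by
      rw [hT, h2, add_zero, ContinuousLinearMap.adjoint_inner_left]
    rw [hv, inner_zero_left] at h3
    rw [← p2 v (inner_self_eq_zero.1 h3.symm), h2]
  have hu : IsUnit (T A) := by
    have h1 : Function.Injective (T A) := (injective_iff_map_eq_zero _).2 inj
    exact ContinuousLinearMap.isUnit_iff_bijective.2
      ⟨h1, (LinearMap.injective_iff_surjective (f := (T A : H →ₗ[ℝ] H))).1 h1⟩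
  have h4 : ∀ v, Ring.inverse (T A) (T A v) = v := fun v =>
    congrArg (fun X : H →L[ℝ] H => X v) (Ring.inverse_mul_cancel _ hu)
  refine ⟨p1, p2, fun g => ?_, fun v => ?_⟩
  · change p A (_ - p A _) = 0
    rw [map_sub, p3]
    exact sub_self _
  · have h5 : Ring.inverse (T A) (ContinuousLinearMap.adjoint A (A v)) = v - p A v := by
      have h6 := h4 (v - p A v)
      rwa [hT, map_sub, map_sub (p A), p1, p3, sub_self, sub_zero, add_zero] at h6
    change p A v + (Ring.inverse (T A) (ContinuousLinearMap.adjoint A (A v)) -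
      p A (Ring.inverse (T A) (ContinuousLinearMap.adjoint A (A v)))) = v
    rw [h5, map_sub, p3, sub_self, sub_zero, add_sub_cancel]

/-- a projection `P` on the kernel of `A`, with a one-sided inverse `R` -/
structure Spl (A : F →L[ℝ] G) (P : F →L[ℝ] F) (R : G →L[ℝ] F) : Prop where
  range : P.range = A.ker
  idem : P * P = P
  zero : P ∘L R = 0
  one : P + R ∘L A = 1

theorem exists_meas_split (F G : Type) [NormedAddCommGroup F] [NormedSpace ℝ F]
    [FiniteDimensional ℝ F] [NormedAddCommGroup G] [NormedSpace ℝ G] [FiniteDimensional ℝ G] :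
    ∃ (p : (F →L[ℝ] G) → F →L[ℝ] F) (r : (F →L[ℝ] G) → G →L[ℝ] F),
      Measurable p ∧ Measurable r ∧ ∀ A, Spl A (p A) (r A) := by
  let e := toEuclidean (E := F)
  let e' := toEuclidean (E := G)
  obtain ⟨p, r, mp, mr, h⟩ := split_euclid (H := EuclideanSpace ℝ (Fin (Module.finrank ℝ F)))
    (H' := EuclideanSpace ℝ (Fin (Module.finrank ℝ G)))
  let B := fun A : F →L[ℝ] G =>
    e'.toContinuousLinearMap ∘L A ∘L e.symm.toContinuousLinearMap
  have hB : Measurable B :=
    (continuous_const.clm_comp (continuous_id.clm_comp continuous_const)).measurable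
  refine ⟨fun A => e.symm.toContinuousLinearMap ∘L p (B A) ∘L e.toContinuousLinearMap,
    fun A => e.symm.toContinuousLinearMap ∘L r (B A) ∘L e'.toContinuousLinearMap,
    (continuous_const.clm_comp (continuous_id.clm_comp continuous_const)).measurable.comp
      (mp.comp hB),
    (continuous_const.clm_comp (continuous_id.clm_comp continuous_const)).measurable.comp
      (mr.comp hB), fun A => ?_⟩
  obtain ⟨p1, p2, p3, p4⟩ := h (B A)
  have b1 : ∀ v, B A (e v) = e' (A v) := fun v => by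
    change e' (A (e.symm (e v))) = _
    rw [e.symm_apply_apply]
  have c1 : ∀ v, A v = 0 → e.symm (p (B A) (e v)) = v := fun v hv => by
    rw [p2 _ (by rw [b1, hv, map_zero]), e.symm_apply_apply]
  have c2 : ∀ v, e.symm (p (B A) (e (e.symm (p (B A) (e v))))) = e.symm (p (B A) (e v)) :=
    fun v => by rw [e.apply_symm_apply, p2 _ (p1 _)]
  have c3 : ∀ g, e.symm (p (B A) (e (e.symm (r (B A) (e' g))))) = 0 := fun g => by
    rw [e.apply_symm_apply, p3, map_zero]
  have c4 : ∀ v, e.symm (p (B A) (e v)) + e.symm (r (B A) (e' (A v))) = v := fun v => by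
    rw [← map_add, ← b1, p4, e.symm_apply_apply]
  refine ⟨le_antisymm ?_ fun v hv => ⟨v, c1 v hv⟩, ContinuousLinearMap.ext c2,
    ContinuousLinearMap.ext c3, ContinuousLinearMap.ext c4⟩
  rintro _ ⟨v, rfl⟩
  exact e'.map_eq_zero_iff.1 (p1 (e v))

/-- the map `(P, R, M) ↦ (P + R M)⁻¹ P` -/
def kp (u : ((F →L[ℝ] F) × (G →L[ℝ] F)) × (F →L[ℝ] G)) : F →L[ℝ] F :=
  Ring.inverse (u.1.1 + u.1.2 ∘L u.2) * u.1.1

/-- its domain -/
def kO (F G : Type) [NormedAddCommGroup F] [NormedSpace ℝ F] [NormedAddCommGroup G]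
    [NormedSpace ℝ G] : Set (((F →L[ℝ] F) × (G →L[ℝ] F)) × (F →L[ℝ] G)) :=
  {u | IsUnit (u.1.1 + u.1.2 ∘L u.2)}

theorem contDiff_kT : ContDiff ℝ ∞ fun u : ((F →L[ℝ] F) × (G →L[ℝ] F)) × (F →L[ℝ] G) =>
    u.1.1 + u.1.2 ∘L u.2 :=
  contDiff_fst.fst.add (contDiff_fst.snd.clm_comp contDiff_snd)

theorem isOpen_kO : IsOpen (kO F G) := by
  have := FiniteDimensional.complete ℝ F
  exact Units.isOpen.preimage contDiff_kT.continuous

theorem contDiffAt_kI {u : ((F →L[ℝ] F) × (G →L[ℝ] F)) × (F →L[ℝ] G)} (hu : u ∈ kO F G) :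
    ContDiffAt ℝ ∞ (fun u : ((F →L[ℝ] F) × (G →L[ℝ] F)) × (F →L[ℝ] G) =>
      Ring.inverse (u.1.1 + u.1.2 ∘L u.2)) u := by
  have := FiniteDimensional.complete ℝ F
  obtain ⟨w, hw⟩ := hu
  exact ContDiffAt.comp (g := Ring.inverse) u (hw ▸ contDiffAt_ringInverse ℝ w)
    contDiff_kT.contDiffAt

theorem contDiffAt_kp {u : ((F →L[ℝ] F) × (G →L[ℝ] F)) × (F →L[ℝ] G)} (hu : u ∈ kO F G) :
    ContDiffAt ℝ ∞ kp u :=
  (contDiffAt_kI hu).mul contDiff_fst.fst.contDiffAt

/-- a germ of projections of rank `d` -/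
structure PG (d : ℕ) (P : V → F →L[ℝ] F) : Prop where
  cont : ContinuousAt P 0
  idem : ∀ᶠ q in 𝓝 (0 : V), P q * P q = P q
  rank : Module.finrank ℝ (P 0).range = d

theorem dom_swap {r d : ℕ} {M : V → F →L[ℝ] G} {P P' : V → F →L[ℝ] F} (hP : PG d P)
    (hP' : PG d P') (h1 : Dom r (cmp P') M) (h2 : Dom r M (cmp P)) : Dom r M (cmp P') :=
  h2.trans ((h1.trans h2).cmp_symm hP'.cont hP.cont hP'.idem hP.idem
    (hP'.rank.trans hP.rank.symm).le)

namespace Spl

variable {M : V → F →L[ℝ] G} {P : F →L[ℝ] F} {R : G →L[ℝ] F} {k : ℕ}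

theorem mem (h : Spl (M 0) P R) : ((P, R), M 0) ∈ kO F G := by
  change IsUnit (P + R ∘L M 0)
  rw [h.one]
  exact isUnit_one

theorem val (h : Spl (M 0) P R) : kp ((P, R), M 0) = P := by
  change Ring.inverse (P + R ∘L M 0) * P = P
  rw [h.one, Ring.inverse_one, one_mul]

theorem ev (h : Spl (M 0) P R) (hM : ContinuousAt M 0) :
    ∀ᶠ q in 𝓝 (0 : V), IsUnit (P + R ∘L M q) :=
  (continuousAt_const.prodMk hM).preimage_mem_nhds (isOpen_kO.mem_nhds h.mem)

theorem contDiffAt (h : Spl (M 0) P R) (hM : ContDiffAt ℝ k M 0) :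
    ContDiffAt ℝ k (fun q => kp ((P, R), M q)) 0 :=
  ContDiffAt.comp (g := kp) (f := fun q => ((P, R), M q)) 0
    ((contDiffAt_kp h.mem).of_le (by exact_mod_cast le_top)) (contDiffAt_const.prodMk hM)

theorem ev_idem (h : Spl (M 0) P R) (hM : ContinuousAt M 0) :
    ∀ᶠ q in 𝓝 (0 : V), kp ((P, R), M q) * kp ((P, R), M q) = kp ((P, R), M q) := by
  filter_upwards [h.ev hM] with q hq
  have e1 : P * (P + R ∘L M q) = P := by
    rw [mul_add, h.idem]
    change P + (P ∘L R) ∘L M q = P
    rw [h.zero, ContinuousLinearMap.zero_comp, add_zero]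
  have h4 : P * Ring.inverse (P + R ∘L M q) = P := by
    have h5 := congrArg (· * Ring.inverse (P + R ∘L M q)) e1
    simp only [mul_assoc, Ring.mul_inverse_cancel _ hq, mul_one] at h5
    exact h5.symm
  change Ring.inverse (P + R ∘L M q) * P * (Ring.inverse (P + R ∘L M q) * P) =
    Ring.inverse (P + R ∘L M q) * P
  rw [mul_assoc, ← mul_assoc P, h4, h.idem]

theorem dom (h : Spl (M 0) P R) (hM : ContinuousAt M 0) (r : ℕ) :
    Dom r (cmp fun q => kp ((P, R), M q)) M := by
  have c1 : ContinuousAt (fun q => Ring.inverse (P + R ∘L M q) ∘L R) 0 :=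
    (ContinuousAt.comp (f := fun q => ((P, R), M q)) (contDiffAt_kI h.mem).continuousAt
      (continuousAt_const.prodMk hM)).clm_comp continuousAt_const
  refine ((Dom.refl M).left c1).congr ?_ EventuallyEq.rfl
  filter_upwards [h.ev hM] with q hq
  refine ContinuousLinearMap.ext fun v => ?_
  have h5 := congrArg (fun X : F →L[ℝ] F => X v) (Ring.inverse_mul_cancel _ hq)
  change Ring.inverse (P + R ∘L M q) (P v + R (M q v)) = v at h5
  rw [map_add] at h5
  exact sub_eq_of_eq_add' h5.symm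

theorem pg (h : Spl (M 0) P R) (hM : ContinuousAt M 0) {d : ℕ}
    (hd : Module.finrank ℝ (M 0).ker = d) : PG d fun q => kp ((P, R), M q) where
  cont := ContinuousAt.comp (g := kp) (f := fun q => ((P, R), M q))
    (contDiffAt_kp h.mem).continuousAt (continuousAt_const.prodMk hM)
  idem := h.ev_idem hM
  rank := by rw [h.val, h.range, hd]

theorem prj (h : Spl (M 0) P R) (hM : ContDiffAt ℝ k M 0) :
    ∃ n, Prj k n fun q => kp ((P, R), M q) := by
  obtain ⟨n, hn⟩ := CkB.of_contDiffAt (h.contDiffAt hM)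
  obtain ⟨ε, hε, h1⟩ := Metric.eventually_nhds_iff_ball.1 (h.ev_idem hM.continuousAt)
  obtain ⟨m, hm⟩ := exists_rad_le hε
  exact ⟨max n m, hn.mono le_rfl (le_max_left _ _), fun q hq =>
    h1 q (ball_subset_ball (hm _ (le_max_right _ _)) hq)⟩

theorem flat_zero (h : Spl (M 0) P R) (hM : ContinuousAt M 0) :
    Dom 0 M (cmp fun q => kp ((P, R), M q)) := by
  have h1 := h.pg hM rfl
  refine (dom_cmp_iff hM h1.cont h1.idem).2 (flat_zero_iff.2 ?_)
  have h2 : M 0 ∘L kp ((P, R), M 0) = 0 := by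
    rw [h.val]
    exact ContinuousLinearMap.ext fun v => (h.range.le ⟨v, rfl⟩ : P v ∈ (M 0).ker)
  exact h2 ▸ (hM.clm_comp h1.cont).tendsto

end Spl

theorem finrank_conj {U W : F →L[ℝ] F} (h : U * W = 1) (h' : W * U = 1) (P : F →L[ℝ] F) :
    Module.finrank ℝ (U * P * W).range = Module.finrank ℝ P.range := by
  have a1 : ∀ v, U (W v) = v := fun v => congrArg (fun X : F →L[ℝ] F => X v) h
  have a2 : ∀ v, W (U v) = v := fun v => congrArg (fun X : F →L[ℝ] F => X v) h'
  have e : (U * P * W).range = P.range.map (U : F →ₗ[ℝ] F) := by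
    refine le_antisymm ?_ ?_
    · rintro _ ⟨v, rfl⟩
      exact ⟨P (W v), ⟨W v, rfl⟩, rfl⟩
    · rintro _ ⟨_, ⟨v, rfl⟩, rfl⟩
      exact ⟨U v, congrArg (fun w => U (P w)) (a2 v)⟩
  rw [e]
  exact (LinearEquiv.finrank_eq (Submodule.equivMapOfInjective _
    (Function.LeftInverse.injective a2) _)).symm

theorem finrank_ker_comp {U W : F →L[ℝ] F} (h : U * W = 1) (h' : W * U = 1) (M : F →L[ℝ] G) :
    Module.finrank ℝ (M ∘L W).ker = Module.finrank ℝ M.ker := by
  have a1 : ∀ v, U (W v) = v := fun v => congrArg (fun X : F →L[ℝ] F => X v) h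
  have a2 : ∀ v, W (U v) = v := fun v => congrArg (fun X : F →L[ℝ] F => X v) h'
  have e : (M ∘L W).ker = M.ker.map (U : F →ₗ[ℝ] F) := by
    refine le_antisymm (fun v hv => ⟨W v, hv, a1 v⟩) ?_
    rintro _ ⟨v, hv, rfl⟩
    exact (congrArg M (a2 v)).trans hv
  rw [e]
  exact (LinearEquiv.finrank_eq (Submodule.equivMapOfInjective _
    (Function.LeftInverse.injective a2) _)).symm

end Vale.Agent.P207Z.OpsC
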